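import Vale.Agent.P075.MatrixBound
import Vale.Agent.P075.Grid
import Vale.Agent.P075.StepEval
import Vale.Agent.P075.Analysis

/-!
P075, Q2: the dyadic triangular Hilbert form is bounded on `L³ × L³ × L³`, uniformly in the scales
and the coefficients.
-/

namespace Vale.Agent.Results.P075.DyadicTriangularBound

open Vale.Agent.P075

theorem result : DyadicBound :=
  analysis (gridBound stepBound) stepEval

end Vale.Agent.Results.P075.DyadicTriangularBound
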